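import Vale.Agent.P024.H409.Dens3

/-!
P024, block (C), second half: the primes of degree one modulo which a number is an `s`-th power.
-/

namespace Vale.Agent.P024.H537

open scoped NumberField ENNReal Topology
open IsDedekindDomain NumberField Filter Vale.Agent.P024 Vale.Agent.P024.H409

/-- degree one primes modulo which `x` is an `s`-th power -/
def bad (K : Type*) [Field K] [NumberField K] (s x : ℕ) : Set (HeightOneSpectrum (𝓞 K)) :=
  {w | (Ideal.absNorm w.asIdeal).Prime ∧ ∃ y : 𝓞 K, (x : 𝓞 K) - y ^ s ∈ w.asIdeal}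

theorem pow_sub_one_mem {K : Type*} [Field K] [NumberField K] (w : HeightOneSpectrum (𝓞 K))
    {s k : ℕ} (hk : Ideal.absNorm w.asIdeal = s * k + 1) {x y : 𝓞 K} (hx : x ∉ w.asIdeal)
    (hs : s ≠ 0) (h : x - y ^ s ∈ w.asIdeal) : x ^ k - 1 ∈ w.asIdeal := by
  have hfin : Finite (𝓞 K ⧸ w.asIdeal) := Ideal.finiteQuotientOfFreeOfNeBot _ w.ne_bot
  have hmax : w.asIdeal.IsMaximal := w.isMaximal
  let _ : Field (𝓞 K ⧸ w.asIdeal) := Ideal.Quotient.field _
  let _ : Fintype (𝓞 K ⧸ w.asIdeal) := Fintype.ofFinite _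
  have hcard : Fintype.card (𝓞 K ⧸ w.asIdeal) = s * k + 1 := by
    rw [← hk, Ideal.absNorm_apply, Submodule.cardQuot_apply, Nat.card_eq_fintype_card]
  rw [← Ideal.Quotient.eq_zero_iff_mem] at hx ⊢
  have h1 : Ideal.Quotient.mk w.asIdeal x = Ideal.Quotient.mk w.asIdeal y ^ s := by
    rw [← map_pow, Ideal.Quotient.eq]
    exact h
  have h2 : Ideal.Quotient.mk w.asIdeal y ≠ 0 := by
    intro h0
    rw [h0, zero_pow hs] at h1
    exact hx h1
  have h3 := FiniteField.pow_card_sub_one_eq_one _ h2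
  rw [hcard, Nat.add_sub_cancel, pow_mul, ← h1] at h3
  rw [map_sub, map_pow, map_one, h3, sub_self]

theorem eq_one_of_sub_mem {R : Type*} [CommRing R] [IsDomain R] (P : Ideal R) {s : ℕ}
    (hs : (s : R) ∉ P) {ξ : R} (hξ : ξ ^ s = 1) (h : ξ - 1 ∈ P) : ξ = 1 := by
  by_contra hne
  have h1 : (∑ i ∈ Finset.range s, ξ ^ i) = 0 := by
    have h2 := mul_neg_geom_sum ξ s
    rw [hξ, sub_self] at h2
    rcases mul_eq_zero.1 h2 with h3 | h3
    · exact absurd (sub_eq_zero.1 h3).symm hne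
    · exact h3
  apply hs
  rw [← Ideal.Quotient.eq_zero_iff_mem]
  have h2 : Ideal.Quotient.mk P ξ = 1 := by
    rw [← map_one (Ideal.Quotient.mk P), Ideal.Quotient.eq]
    exact h
  have h3 := congrArg (Ideal.Quotient.mk P) h1
  rw [map_sum, map_zero] at h3
  simp only [map_pow, h2, one_pow, Finset.sum_const, Finset.card_range, nsmul_eq_mul, mul_one]
    at h3
  rw [map_natCast]
  exact h3

variable {K L : Type*} [Field K] [NumberField K] [Field L] [NumberField L] [Algebra K L]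

theorem absNorm_eq_of_kummer [IsGalois K L] {s : ℕ} (hs : s.Prime) {ζ : 𝓞 K}
    (hζ : IsPrimitiveRoot ζ s) (x : ℕ) {θ : 𝓞 L} (hθ : θ ^ s = (x : 𝓞 L))
    (hgen : ∀ σ : L ≃ₐ[K] L, σ (θ : L) = (θ : L) → σ = 1)
    (w : HeightOneSpectrum (𝓞 K)) (hsw : (s : 𝓞 K) ∉ w.asIdeal) (hxw : (x : 𝓞 K) ∉ w.asIdeal)
    {y : 𝓞 K} (hy : (x : 𝓞 K) - y ^ s ∈ w.asIdeal)
    (P : HeightOneSpectrum (𝓞 L)) (hP : pullPrime (algebraMap K L) P = w) :
    Ideal.absNorm P.asIdeal = Ideal.absNorm w.asIdeal := by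
  have hsP : (s : 𝓞 L) ∉ P.asIdeal := by
    intro h
    apply hsw
    rw [← hP, mem_pullPrime, map_natCast]
    exact h
  have hxP : (x : 𝓞 L) ∉ P.asIdeal := by
    intro h
    apply hxw
    rw [← hP, mem_pullPrime, map_natCast]
    exact h
  have hPp : P.asIdeal.IsPrime := P.isPrime
  have hθP : θ ∉ P.asIdeal := by
    intro h
    apply hxP
    rw [← hθ]
    exact Ideal.pow_mem_of_mem _ h _ hs.pos
  have hζK : IsPrimitiveRoot (ζ : K) s :=
    hζ.map_of_injective (FaithfulSMul.algebraMap_injective (𝓞 K) K)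
  set ζL : 𝓞 L := RingOfIntegers.mapRingHom (algebraMap K L) ζ with hζL
  have hζLL : (ζL : L) = algebraMap K L (ζ : K) := rfl
  have hζL1 : IsPrimitiveRoot (ζL : L) s := by
    rw [hζLL]
    exact hζK.map_of_injective (algebraMap K L).injective
  have hζL2 : IsPrimitiveRoot ζL s := by
    refine IsPrimitiveRoot.of_map_of_injective (f := algebraMap (𝓞 L) L) ?_
      (FaithfulSMul.algebraMap_injective (𝓞 L) L)
    exact hζL1
  obtain ⟨σ, hσ1, hσ2⟩ := exists_frobenius (K := K) P hζL2.pow_eq_one hsP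
  rw [hP] at hσ1 hσ2
  set N := Ideal.absNorm w.asIdeal with hN
  have hN2 : 2 ≤ N := two_le_absNorm w
  obtain ⟨k, hk⟩ : ∃ k, N = s * k + 1 := by
    have h1 : (ζL : L) ^ 1 = (ζL : L) ^ N := by
      rw [pow_one, ← hσ1, hζLL, σ.commutes]
    rw [prim_pow_iff hs.pos hζL1] at h1
    obtain ⟨k, hk⟩ := (Nat.modEq_iff_dvd' (by omega)).1 h1
    exact ⟨k, by omega⟩
  have hθ0 : (θ : L) ≠ 0 := by
    intro h
    apply hθP
    have h1 : θ = 0 := RingOfIntegers.ext h
    rw [h1]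
    exact P.asIdeal.zero_mem
  have hθL : (θ : L) ^ s = (x : L) := by
    have := congrArg (algebraMap (𝓞 L) L) hθ
    rw [map_pow, map_natCast] at this
    exact this
  obtain ⟨j, hj⟩ : ∃ j, σ (θ : L) = (ζL : L) ^ j * (θ : L) := by
    have h1 : (σ (θ : L) / (θ : L)) ^ s = 1 := by
      rw [div_pow, ← map_pow, hθL, map_natCast, ← hθL, div_self (pow_ne_zero _ hθ0)]
    have : NeZero s := ⟨hs.ne_zero⟩
    obtain ⟨j, -, hj⟩ := hζL1.eq_pow_of_pow_eq_one h1
    exact ⟨j, by rw [hj, div_mul_cancel₀ _ hθ0]⟩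
  have h1 := hσ2 θ (ζL ^ j * θ) (by rw [hj]; rfl)
  have h2 : θ ^ N = θ * (x : 𝓞 L) ^ k := by
    rw [hk, pow_succ', pow_mul, hθ]
  have h3 : (x : 𝓞 L) ^ k - 1 ∈ P.asIdeal := by
    have h4 := pow_sub_one_mem w (k := k) hk hxw hs.ne_zero hy
    rw [← hP, mem_pullPrime, map_sub, map_pow, map_natCast, map_one] at h4
    exact h4
  have h4 : (ζL ^ j - 1) * θ ∈ P.asIdeal := by
    rw [h2] at h1
    have h5 := P.asIdeal.add_mem h1 (P.asIdeal.mul_mem_left θ h3)
    convert h5 using 1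
    ring
  have h5 : ζL ^ j - 1 ∈ P.asIdeal := (hPp.mem_or_mem h4).resolve_right hθP
  have h6 : ζL ^ j = 1 := eq_one_of_sub_mem P.asIdeal hsP (by
    rw [← pow_mul, mul_comm, pow_mul, hζL2.pow_eq_one, one_pow]) h5
  have h7 : σ = 1 := by
    apply hgen
    rw [hj]
    have h8 := congrArg (algebraMap (𝓞 L) L) h6
    rw [map_pow, map_one] at h8
    have h9 : (ζL : L) ^ j = 1 := h8
    rw [h9, one_mul]
  have hfin : Finite (𝓞 L ⧸ P.asIdeal) := Ideal.finiteQuotientOfFreeOfNeBot _ P.ne_bot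
  have hmax : P.asIdeal.IsMaximal := P.isMaximal
  let _ : Field (𝓞 L ⧸ P.asIdeal) := Ideal.Quotient.field _
  have hle : Ideal.absNorm P.asIdeal ≤ N := by
    rw [Ideal.absNorm_apply, Submodule.cardQuot_apply]
    refine card_le_of_pow_eq (by omega) ?_
    intro t
    obtain ⟨z, rfl⟩ := Ideal.Quotient.mk_surjective t
    rw [← map_pow, Ideal.Quotient.eq]
    have h8 := hσ2 z z (by rw [h7]; rfl)
    rw [← neg_sub]
    exact P.asIdeal.neg_mem h8
  have hlo := liesOver_of_pull hP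
  have hwp : w.asIdeal.IsPrime := w.isPrime
  have hwm : w.asIdeal.IsMaximal := w.isMaximal
  have h8 : Ideal.absNorm P.asIdeal = Ideal.absNorm w.asIdeal ^
      Ideal.inertiaDeg' w.asIdeal P.asIdeal :=
    Ideal.absNorm_eq_pow_inertiaDeg'_of_liesOver P.asIdeal w.asIdeal hwp w.ne_bot
  have h9 := Ideal.inertiaDeg'_ne_zero w.asIdeal P.asIdeal
  refine le_antisymm hle ?_
  rw [h8]
  exact Nat.le_self_pow h9 _

theorem sg_union_le {K : Type*} [Field K] [NumberField K] (A B : Set (HeightOneSpectrum (𝓞 K)))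
    (t : ℝ) : sg K (A ∪ B) t ≤ sg K A t + sg K B t :=
  ENNReal.tsum_union_le (fun w : HeightOneSpectrum (𝓞 K) => ENNReal.ofReal (nm K w t)) A B

theorem bad_dens_of [IsGalois K L] {s : ℕ} (hs : s.Prime) {ζ : 𝓞 K}
    (hζ : IsPrimitiveRoot ζ s) (x : ℕ) (hx0 : x ≠ 0) {θ : 𝓞 L} (hθ : θ ^ s = (x : 𝓞 L))
    (hgen : ∀ σ : L ≃ₐ[K] L, σ (θ : L) = (θ : L) → σ = 1) (hfr : Module.finrank K L = s) :
    ∃ C : ℝ, ∀ᶠ t : ℝ in 𝓝[>] 1, (sg K (bad K s x) t).toReal ≤
      (1 / (s : ℝ)) * Real.log (1 / (t - 1)) + C := by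
  set S : Set (HeightOneSpectrum (𝓞 K)) := {w | ∃ P : HeightOneSpectrum (𝓞 L),
    pullPrime (algebraMap K L) P = w ∧ ∃ p : ℕ, p.Prime ∧ (p : 𝓞 L) ∈ P.asIdeal ∧
      P.valuation L (p : L) ≠ WithZero.exp (-1 : ℤ)} ∪ {w | ((s * x : ℕ) : 𝓞 K) ∈ w.asIdeal}
    with hS
  have hSfin : S.Finite := H409.finite_bad.union (finite_dvd (Nat.mul_ne_zero hs.ne_zero hx0))
  set B : Set (HeightOneSpectrum (𝓞 K)) := bad K s x \ S with hB
  set A : Set (HeightOneSpectrum (𝓞 L)) := {P | pullPrime (algebraMap K L) P ∈ B} with hA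
  have hnorm : ∀ P : HeightOneSpectrum (𝓞 L), pullPrime (algebraMap K L) P ∈ B →
      Ideal.absNorm P.asIdeal = Ideal.absNorm (pullPrime (algebraMap K L) P).asIdeal := by
    rintro P ⟨⟨hP1, y, hy⟩, hP2⟩
    refine absNorm_eq_of_kummer hs hζ x hθ hgen _ ?_ ?_ hy P rfl
    · intro h
      apply hP2
      right
      show ((s * x : ℕ) : 𝓞 K) ∈ (pullPrime (algebraMap K L) P).asIdeal
      rw [Nat.cast_mul]
      exact Ideal.mul_mem_right _ _ h
    · intro h
      apply hP2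
      right
      show ((s * x : ℕ) : 𝓞 K) ∈ (pullPrime (algebraMap K L) P).asIdeal
      rw [Nat.cast_mul]
      exact Ideal.mul_mem_left _ _ h
  let g : A → B := fun P => ⟨pullPrime (algebraMap K L) P.1, P.2⟩
  have hkey := sg_fiber_eq (M := L) (K := K) (A := A) (B := B) (m := s) g
    (fun P => hnorm P.1 P.2) (by
      rintro ⟨w, hw⟩
      have h1 := card_over_eq (M := L) w (by
        intro P hP
        refine ⟨by rw [hnorm P (by rw [hP]; exact hw), hP], ?_⟩
        intro p hp hpP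
        by_contra hne
        exact hw.2 (Or.inl ⟨P, hP, p, hp, hpP, hne⟩))
      rw [← hfr, ← h1, ← encard_over (M := L) w, Set.encard]
      refine ENat.card_congr ?_
      refine ⟨fun P => ⟨P.1.1, ?_⟩, fun P => ⟨⟨P.1, ?_⟩, ?_⟩, ?_, ?_⟩
      · have h2 : g P.1 = ⟨w, hw⟩ := P.2
        exact congrArg Subtype.val h2
      · have h2 : pullPrime (algebraMap K L) P.1 = w := P.2
        show pullPrime (algebraMap K L) P.1 ∈ B
        rw [h2]
        exact hw
      · exact Subtype.ext P.2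
      · intro P
        rfl
      · intro P
        rfl)
  have hAsub : A ⊆ {P | (Ideal.absNorm P.asIdeal).Prime} := by
    intro P hP
    show (Ideal.absNorm P.asIdeal).Prime
    rw [hnorm P hP]
    exact hP.1.1
  obtain ⟨C, hC⟩ := hasDens_one L
  obtain ⟨C₁, hC₁⟩ := hasDens_finite hSfin
  have hs0 : (0 : ℝ) < s := by exact_mod_cast hs.pos
  refine ⟨C / s + C₁, ?_⟩
  filter_upwards [hC, hC₁, eventually_sg K, eventually_sg L] with t h1 h2 h3 h4
  have h5 : (sg L A t).toReal ≤ Real.log (1 / (t - 1)) + C := by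
    have h6 := ENNReal.toReal_mono (h4 _) (sg_mono hAsub t)
    rw [one_mul] at h1
    have h7 := (abs_le.1 h1).2
    linarith
  rw [hkey t, ENNReal.toReal_mul, ENNReal.toReal_natCast] at h5
  have h6 : (sg K B t).toReal ≤ (1 / (s : ℝ)) * Real.log (1 / (t - 1)) + C / s := by
    rw [one_div, inv_mul_eq_div, ← add_div, le_div_iff₀ hs0]
    linarith
  have h7 : (sg K (bad K s x) t).toReal ≤ (sg K B t).toReal + (sg K S t).toReal := by
    have h8 : sg K (bad K s x) t ≤ sg K B t + sg K S t := by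
      refine (sg_mono ?_ t).trans (sg_union_le B S t)
      rw [hB, Set.sdiff_union_self]
      exact Set.subset_union_left
    have h9 := ENNReal.toReal_mono (ENNReal.add_ne_top.2 ⟨h3 B, h3 S⟩) h8
    rwa [ENNReal.toReal_add (h3 _) (h3 _)] at h9
  rw [zero_mul, sub_zero] at h2
  have h8 := le_abs_self (sg K S t).toReal
  linarith

open Polynomial in
theorem bad_dens_split (K L : Type*) [Field K] [NumberField K] [Field L] [NumberField L]
    [Algebra K L] {s : ℕ} (hs : s.Prime) {ζ : K} (hζ : IsPrimitiveRoot ζ s) (x : ℕ) (hx0 : x ≠ 0)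
    (hx : ∀ z : K, z ^ s ≠ (x : K)) [IsSplittingField K L (X ^ s - C (x : K))] :
    ∃ C : ℝ, ∀ᶠ t : ℝ in 𝓝[>] 1, (sg K (bad K s x) t).toReal ≤
      (1 / (s : ℝ)) * Real.log (1 / (t - 1)) + C := by
  have hNZ : NeZero s := ⟨hs.ne_zero⟩
  have hirr : Irreducible (X ^ s - C (x : K) : K[X]) := X_pow_sub_C_irreducible_of_prime hs hx
  have hne : (primitiveRoots s K).Nonempty := ⟨ζ, (mem_primitiveRoots hs.pos).2 hζ⟩
  have hgal : IsGalois K L := isGalois_of_isSplittingField_X_pow_sub_C hne hirr L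
  have hfr : Module.finrank K L = s := finrank_of_isSplittingField_X_pow_sub_C hne hirr L
  obtain ⟨α, hα⟩ : ∃ α : L, α ^ s = algebraMap K L (x : K) :=
    ⟨rootOfSplitsXPowSubC hs.pos (x : K) L, rootOfSplitsXPowSubC_pow (x : K) L⟩
  have hα' : α ^ s = (x : L) := by rw [hα, map_natCast]
  have hint : IsIntegral ℤ α := by
    refine IsIntegral.of_pow hs.pos ?_
    rw [hα']
    have h1 := isIntegral_algebraMap (R := ℤ) (A := L) (x := (x : ℤ))
    simpa using h1
  have htop := IntermediateField.adjoin_root_eq_top_of_isSplittingField hne hirr hα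
  obtain ⟨θ, hθ⟩ : ∃ θ : 𝓞 L, (θ : L) = α := ⟨⟨α, hint⟩, rfl⟩
  refine bad_dens_of (L := L) hs (ζ := hζ.toInteger) hζ.toInteger_isPrimitiveRoot x hx0
    (θ := θ) ?_ ?_ hfr
  · apply RingOfIntegers.ext
    have h1 : algebraMap (𝓞 L) L (θ ^ s) = algebraMap (𝓞 L) L (x : 𝓞 L) := by
      rw [map_pow, map_natCast, ← hα', ← hθ]
    exact h1
  · intro σ hσ
    have hσ' : σ α = α := by rwa [hθ] at hσ
    ext y
    have hy : y ∈ IntermediateField.adjoin K {α} := by
      rw [htop]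
      trivial
    rw [AlgEquiv.one_apply]
    induction hy using IntermediateField.adjoin_induction with
    | mem z hz =>
      rw [Set.mem_singleton_iff] at hz
      rw [hz]
      exact hσ'
    | algebraMap z => exact σ.commutes z
    | add a b _ _ ha hb => rw [map_add, ha, hb]
    | inv a _ ha => rw [map_inv₀, ha]
    | mul a b _ _ ha hb => rw [map_mul, ha, hb]

open Polynomial in
theorem bad_dens (K : Type*) [Field K] [NumberField K] {s : ℕ} (hs : s.Prime) {ζ : K}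
    (hζ : IsPrimitiveRoot ζ s) (x : ℕ) (hx0 : x ≠ 0) (hx : ∀ z : K, z ^ s ≠ (x : K)) :
    ∃ C : ℝ, ∀ᶠ t : ℝ in 𝓝[>] 1, (sg K (bad K s x) t).toReal ≤
      (1 / (s : ℝ)) * Real.log (1 / (t - 1)) + C := by
  have hNL : NumberField (X ^ s - C (x : K) : K[X]).SplittingField :=
    NumberField.of_module_finite K _
  exact bad_dens_split K (X ^ s - C (x : K) : K[X]).SplittingField hs hζ x hx0 hx

end Vale.Agent.P024.H537
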