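import Mathlib

/-!
P024, block (C), first half: a rational number which is not an `s`-th power is not an `s`-th power
in a cyclotomic field.
-/

namespace Vale.Agent.P024.H537

open Polynomial IntermediateField

theorem finrank_adjoin_root {s : ℕ} (hs : s.Prime) {x : ℚ} (hx : ∀ y : ℚ, y ^ s ≠ x) {K : Type*}
    [Field K] [CharZero K] {z : K} (hz : z ^ s = algebraMap ℚ K x) :
    minpoly ℚ z = X ^ s - C x ∧ Module.finrank ℚ ℚ⟮z⟯ = s := by
  have hirr : Irreducible (X ^ s - C x : ℚ[X]) := X_pow_sub_C_irreducible_of_prime hs hx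
  have hmonic : (X ^ s - C x : ℚ[X]).Monic := monic_X_pow_sub_C x hs.pos.ne'
  have hroot : aeval z (X ^ s - C x : ℚ[X]) = 0 := by simp [hz]
  have h1 : minpoly ℚ z = X ^ s - C x :=
    (minpoly.eq_of_irreducible_of_monic hirr hroot hmonic).symm
  refine ⟨h1, ?_⟩
  have hint : IsIntegral ℚ z := ⟨_, hmonic, hroot⟩
  rw [IntermediateField.adjoin.finrank hint, h1, natDegree_X_pow_sub_C]

theorem not_pow_cyc {N s : ℕ} [NeZero N] (hs : s.Prime) (hs2 : s ≠ 2) (hsN : s ∣ N) (K : Type*)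
    [Field K] [CharZero K] [IsCyclotomicExtension {N} ℚ K] {x : ℚ} (hx0 : x ≠ 0)
    (hx : ∀ y : ℚ, y ^ s ≠ x) (z : K) : z ^ s ≠ algebraMap ℚ K x := by
  intro hz
  obtain ⟨hmin, hfin⟩ := finrank_adjoin_root hs hx hz
  have hNK : NumberField K := IsCyclotomicExtension.numberField {N} ℚ K
  have hab : IsAbelianGalois ℚ K := IsCyclotomicExtension.isAbelianGalois {N} ℚ K
  have hab2 : IsAbelianGalois ℚ ℚ⟮z⟯ := IsAbelianGalois.tower_bot ℚ ℚ⟮z⟯ K
  have hgal : IsGalois ℚ ℚ⟮z⟯ := hab2.toIsGalois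
  have hnorm : Normal ℚ ℚ⟮z⟯ := hgal.to_normal
  have : NeZero s := ⟨hs.pos.ne'⟩
  have hNZ : NeZero (s : ℚ) := ⟨by exact_mod_cast hs.pos.ne'⟩
  obtain ⟨ζ, hζ⟩ : ∃ ζ : K, IsPrimitiveRoot ζ s := by
    obtain ⟨m, hm⟩ := hsN
    have h1 := IsCyclotomicExtension.zeta_spec N ℚ K
    exact ⟨_, h1.pow (NeZero.pos N) (by rw [hm, mul_comm])⟩
  have hz0 : z ≠ 0 := by
    rintro rfl
    rw [zero_pow hs.pos.ne'] at hz
    exact hx0 ((map_eq_zero _).1 hz.symm)
  have hzζ : aeval (z * ζ) (minpoly ℚ z) = 0 := by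
    rw [hmin]
    simp [mul_pow, hz, hζ.pow_eq_one]
  have hmem : z * ζ ∈ ℚ⟮z⟯ := by
    have h1 := hnorm.splits (IntermediateField.AdjoinSimple.gen ℚ z)
    have h2 : minpoly ℚ (IntermediateField.AdjoinSimple.gen ℚ z) = minpoly ℚ z :=
      IntermediateField.minpoly_gen ℚ z
    rw [h2] at h1
    have h3 : ((minpoly ℚ z).map (algebraMap ℚ ℚ⟮z⟯)) ≠ 0 := by
      rw [Ne, Polynomial.map_eq_zero, hmin]
      exact (monic_X_pow_sub_C x hs.pos.ne').ne_zero
    have h4 := h1.mem_range_of_isRoot h3 (i := algebraMap ℚ⟮z⟯ K) (x := z * ζ) (by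
      rw [Polynomial.map_map, ← IsScalarTower.algebraMap_eq, IsRoot.def, eval_map_algebraMap]
      exact hzζ)
    obtain ⟨y, hy⟩ := h4
    rw [← hy]
    exact y.2
  have hζmem : ζ ∈ ℚ⟮z⟯ := by
    have h1 : ζ = (z * ζ) * z⁻¹ := by field_simp
    rw [h1]
    exact mul_mem hmem (inv_mem (mem_adjoin_simple_self ℚ z))
  have hle : ℚ⟮ζ⟯ ≤ ℚ⟮z⟯ := by
    rw [IntermediateField.adjoin_simple_le_iff]
    exact hζmem
  have hdvd : Module.finrank ℚ ℚ⟮ζ⟯ ∣ Module.finrank ℚ ℚ⟮z⟯ :=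
    IntermediateField.finrank_dvd_of_le_right hle
  have hζint : IsIntegral ℚ ζ := (hζ.isIntegral hs.pos).tower_top
  rw [IntermediateField.adjoin.finrank hζint, ← hζ.minpoly_eq_cyclotomic_of_irreducible
    (cyclotomic.irreducible_rat hs.pos), natDegree_cyclotomic, Nat.totient_prime hs, hfin] at hdvd
  have h2 := hs.two_le
  rcases (Nat.dvd_prime hs).1 hdvd with h | h <;> omega

/-- `r ^ f * q ^ k` is not an `s`-th power in `ℚ`. -/
theorem not_pow_rat {r q f k s : ℕ} (hr : r.Prime) (hq : q.Prime) (hrq : r ≠ q) (hf : 0 < f)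
    (hfs : f < s) (y : ℚ) : y ^ s ≠ ((r ^ f * q ^ k : ℕ) : ℚ) := by
  intro h
  have : Fact r.Prime := ⟨hr⟩
  have : Fact q.Prime := ⟨hq⟩
  have hy0 : y ≠ 0 := by
    rintro rfl
    rw [zero_pow (by omega)] at h
    have h1 : (0 : ℚ) < ((r ^ f * q ^ k : ℕ) : ℚ) := by
      exact_mod_cast Nat.mul_pos (pow_pos hr.pos _) (pow_pos hq.pos _)
    linarith
  have h1 := congrArg (padicValRat r) h
  rw [padicValRat.pow, padicValRat.of_nat, padicValNat.mul (pow_ne_zero _ hr.ne_zero)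
    (pow_ne_zero _ hq.ne_zero), padicValNat.prime_pow, padicValNat.pow,
    padicValNat_primes hrq, mul_zero, add_zero] at h1
  have h2 : (s : ℤ) ∣ (f : ℤ) := ⟨_, h1.symm⟩
  have h3 : s ∣ f := by exact_mod_cast h2
  exact absurd (Nat.le_of_dvd hf h3) (by omega)

end Vale.Agent.P024.H537
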