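import Vale.Agent.P024.H537.BadDens
import Vale.Agent.P024.ALL.Spec
import Vale.Agent.P024.H537.NotPow

/-!
P024, block (C): primes `l` for which given numbers are not `s`-th powers modulo `l`.
-/

namespace Vale.Agent.P024.H537

open scoped NumberField ENNReal Topology
open IsDedekindDomain NumberField Filter Vale.Agent.P024 Vale.Agent.P024.H409

theorem sg_iUnion_le {K : Type*} [Field K] [NumberField K] {n : ℕ}
    (A : Fin n → Set (HeightOneSpectrum (𝓞 K))) (t : ℝ) :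
    sg K (⋃ i, A i) t ≤ ∑ i, sg K (A i) t :=
  ENNReal.tsum_iUnion_le (fun w : HeightOneSpectrum (𝓞 K) => ENNReal.ofReal (nm K w t)) A

theorem exists_good (K : Type*) [Field K] [NumberField K] {s n : ℕ} (hn : n < s)
    (x : Fin n → ℕ)
    (h : ∀ i, ∃ C : ℝ, ∀ᶠ t : ℝ in 𝓝[>] 1, (sg K (bad K s (x i)) t).toReal ≤
      (1 / (s : ℝ)) * Real.log (1 / (t - 1)) + C)
    (S : Set (HeightOneSpectrum (𝓞 K))) (hS : S.Finite) :
    ∃ w : HeightOneSpectrum (𝓞 K), (Ideal.absNorm w.asIdeal).Prime ∧ w ∉ S ∧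
      ∀ i, w ∉ bad K s (x i) := by
  by_contra hcon
  push Not at hcon
  have hsub : {w : HeightOneSpectrum (𝓞 K) | (Ideal.absNorm w.asIdeal).Prime} ⊆
      (⋃ i, bad K s (x i)) ∪ S := by
    intro w hw
    by_cases hwS : w ∈ S
    · exact Or.inr hwS
    · obtain ⟨i, hi⟩ := hcon w hw hwS
      exact Or.inl (Set.mem_iUnion.2 ⟨i, hi⟩)
  choose C hC using h
  obtain ⟨C₀, hC₀⟩ := hasDens_one K
  obtain ⟨C₁, hC₁⟩ := hasDens_finite hS
  have hs0 : (0 : ℝ) < s := by exact_mod_cast (by omega : 0 < s)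
  have hns : (n : ℝ) / s < 1 := by
    rw [div_lt_one hs0]
    exact_mod_cast hn
  have hall : ∀ᶠ t : ℝ in 𝓝[>] 1, ∀ i, (sg K (bad K s (x i)) t).toReal ≤
      (1 / (s : ℝ)) * Real.log (1 / (t - 1)) + C i := Filter.eventually_all.2 hC
  have hbig := tendsto_log_one_div.eventually_gt_atTop ((C₀ + C₁ + ∑ i, C i) / (1 - (n : ℝ) / s))
  obtain ⟨t, h1, h2, h3, h4, h5⟩ := (hC₀.and (hC₁.and (hall.and
    ((eventually_sg K).and hbig)))).exists
  have h6 : (sg K {w : HeightOneSpectrum (𝓞 K) | (Ideal.absNorm w.asIdeal).Prime} t).toReal ≤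
      ∑ i, (sg K (bad K s (x i)) t).toReal + (sg K S t).toReal := by
    have h7 : sg K {w : HeightOneSpectrum (𝓞 K) | (Ideal.absNorm w.asIdeal).Prime} t ≤
        ∑ i, sg K (bad K s (x i)) t + sg K S t :=
      (sg_mono hsub t).trans ((sg_union_le _ _ t).trans (add_le_add_left (sg_iUnion_le _ t) _))
    have h8 : ∑ i, sg K (bad K s (x i)) t ≠ ∞ := ENNReal.sum_ne_top.2 fun i _ => h4 _
    have h9 := ENNReal.toReal_mono (ENNReal.add_ne_top.2 ⟨h8, h4 S⟩) h7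
    rwa [ENNReal.toReal_add h8 (h4 S), ENNReal.toReal_sum fun i _ => h4 _] at h9
  have h7 : ∑ i, (sg K (bad K s (x i)) t).toReal ≤
      (n : ℝ) / s * Real.log (1 / (t - 1)) + ∑ i, C i := by
    refine (Finset.sum_le_sum fun i _ => h3 i).trans ?_
    rw [Finset.sum_add_distrib, Finset.sum_const, Finset.card_univ, Fintype.card_fin, nsmul_eq_mul]
    apply le_of_eq
    ring
  rw [zero_mul, sub_zero] at h2
  have h8 := le_abs_self (sg K S t).toReal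
  rw [one_mul] at h1
  have h9 := (abs_le.1 h1).1
  rw [div_lt_iff₀ (by linarith)] at h5
  nlinarith

theorem exists_prime_cyc {N s n : ℕ} (hN : 0 < N) (hs : s.Prime) (hs2 : 2 < s) (hn : n < s)
    (r f r₂ : Fin n → ℕ) (hr : ∀ i, (r i).Prime) (hr₂ : ∀ i, (r₂ i).Prime)
    (hne : ∀ i, r i ≠ r₂ i) (hf : ∀ i, 0 < f i) (hfs : ∀ i, f i < s) (m : Fin n → ℕ)
    (B : Set ℕ) (hB : B.Finite) (K : Type) [Field K] [NumberField K] [NeZero (N * s)]
    [IsCyclotomicExtension {N * s} ℚ K] :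
    ∃ l : ℕ, l.Prime ∧ l ∉ B ∧ N ∣ l - 1 ∧ (∀ _ : Fin n, s ∣ l - 1) ∧
      ∀ i, ¬ ∃ y : ZMod l, (r i : ZMod l) ^ (f i) = (r₂ i : ZMod l) ^ (m i) * y ^ s := by
  have hM0 : N * s ≠ 0 := Nat.mul_ne_zero hN.ne' hs.pos.ne'
  have hprim := IsCyclotomicExtension.zeta_spec (N * s) ℚ K
  have hζ : IsPrimitiveRoot ((IsCyclotomicExtension.zeta (N * s) ℚ K) ^ N) s :=
    hprim.pow (Nat.pos_of_ne_zero hM0) rfl
  have hxp : ∀ i, ∀ z : K, z ^ s ≠ ((r i ^ f i * r₂ i ^ (m i * (s - 1)) : ℕ) : K) := by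
    intro i z hz
    refine not_pow_cyc (N := N * s) hs (by omega) (dvd_mul_left s N) K
      (x := ((r i ^ f i * r₂ i ^ (m i * (s - 1)) : ℕ) : ℚ)) ?_ ?_ z ?_
    · exact_mod_cast (Nat.mul_pos (pow_pos (hr i).pos _) (pow_pos (hr₂ i).pos _)).ne'
    · exact not_pow_rat (hr i) (hr₂ i) (hne i) (hf i) (hfs i)
    · rw [hz]
      simp
  have hx0 : ∀ i, r i ^ f i * r₂ i ^ (m i * (s - 1)) ≠ 0 := fun i =>
    (Nat.mul_pos (pow_pos (hr i).pos _) (pow_pos (hr₂ i).pos _)).ne'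
  have hfinB : {w : HeightOneSpectrum (𝓞 K) | Ideal.absNorm w.asIdeal ∈ B}.Finite := by
    have h1 : {w : HeightOneSpectrum (𝓞 K) | Ideal.absNorm w.asIdeal ∈ B} =
        ⋃ b ∈ B, HeightOneSpectrum.asIdeal ⁻¹' {I : Ideal (𝓞 K) | Ideal.absNorm I = b} := by
      ext w
      simp
    rw [h1]
    refine hB.biUnion fun b _ => ?_
    exact (Ideal.finite_setOfPred_absNorm_eq b).preimage fun P _ Q _ h => HeightOneSpectrum.ext h
  obtain ⟨w, hw, hwS, hbad⟩ := exists_good K (s := s) (n := n) (by omega)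
    (fun i => r i ^ f i * r₂ i ^ (m i * (s - 1)))
    (fun i => bad_dens K hs hζ _ (hx0 i) (hxp i))
    ({w | ((N * s : ℕ) : 𝓞 K) ∈ w.asIdeal} ∪ {w | Ideal.absNorm w.asIdeal ∈ B})
    ((finite_dvd hM0).union hfinB)
  simp only [Set.mem_union, Set.mem_ofPred_eq, not_or] at hwS
  obtain ⟨hw1, hw2⟩ := hwS
  have hone : ((Ideal.absNorm w.asIdeal : ℕ) : ZMod (N * s)) ^ 1 = 1 := by
    refine pow_eq_one_of_gal (M := K) (L := K) (Nat.pos_of_ne_zero hM0)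
      (ζ := hprim.toInteger) hprim.toInteger_isPrimitiveRoot ?_ w hw1
    intro σ
    rw [pow_one]
    exact AlgEquiv.ext fun y => σ.commutes y
  have hdvd : N * s ∣ Ideal.absNorm w.asIdeal - 1 := by
    rw [pow_one, ← Nat.cast_one, ZMod.natCast_eq_natCast_iff] at hone
    exact (Nat.modEq_iff_dvd' hw.one_le).1 hone.symm
  refine ⟨Ideal.absNorm w.asIdeal, hw, hw2, (dvd_mul_right N s).trans hdvd,
    fun _ => (dvd_mul_left s N).trans hdvd, ?_⟩
  rintro i ⟨y, hy⟩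
  apply hbad i
  refine ⟨hw, ((r₂ i ^ m i * y.val : ℕ) : 𝓞 K), ?_⟩
  have hNZ : NeZero (Ideal.absNorm w.asIdeal) := ⟨hw.ne_zero⟩
  have h1 : (((r i ^ f i * r₂ i ^ (m i * (s - 1)) : ℕ) : ℤ) -
      (((r₂ i ^ m i * y.val) ^ s : ℕ) : ℤ) : ℤ) ∈
        Ideal.span {((Ideal.absNorm w.asIdeal : ℕ) : ℤ)} := by
    rw [Ideal.mem_span_singleton, ← ZMod.intCast_zmod_eq_zero_iff_dvd]
    push_cast
    rw [ZMod.natCast_zmod_val, hy, sub_eq_zero, mul_pow, ← pow_mul]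
    have h2 : m i * s = m i + m i * (s - 1) := by
      obtain ⟨k, hk⟩ : ∃ k, s = k + 1 := ⟨s - 1, by have := hs.pos; omega⟩
      rw [hk, Nat.add_sub_cancel]
      ring
    rw [h2, pow_add]
    ring
  obtain ⟨c, hc⟩ := Ideal.mem_span_singleton.1 h1
  have h3 : ((r i ^ f i * r₂ i ^ (m i * (s - 1)) : ℕ) : 𝓞 K) -
      ((r₂ i ^ m i * y.val : ℕ) : 𝓞 K) ^ s =
      ((Ideal.absNorm w.asIdeal : ℕ) : 𝓞 K) * (c : 𝓞 K) := by
    have h4 := congrArg (Int.cast : ℤ → 𝓞 K) hc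
    push_cast at h4 ⊢
    exact h4
  rw [h3]
  exact Ideal.mul_mem_right _ _ (Ideal.absNorm_mem w.asIdeal)

theorem propC : ALL.PropC := by
  intro N hN n r f r₂ hr hr₂ hne hf
  obtain ⟨s, hsle, hs⟩ := Nat.exists_infinite_primes (n + 3 + ∑ i, f i)
  have hfs : ∀ i, f i < s := fun i => by
    have := Finset.single_le_sum (f := f) (fun _ _ => Nat.zero_le _) (Finset.mem_univ i)
    omega
  refine ⟨fun _ => s, fun _ => hs, ?_⟩
  intro m B hB
  have hM0 : N * s ≠ 0 := Nat.mul_ne_zero hN.ne' hs.pos.ne'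
  have hNZ : NeZero (N * s) := ⟨hM0⟩
  have : NeZero (((N * s : ℕ)) : ℚ) := ⟨by exact_mod_cast hM0⟩
  have hcyc : IsCyclotomicExtension {N * s} ℚ (CyclotomicField (N * s) ℚ) :=
    CyclotomicField.isCyclotomicExtension (N * s) ℚ
  have hNK : NumberField (CyclotomicField (N * s) ℚ) := inferInstance
  exact exists_prime_cyc hN hs (by omega) (by omega) r f r₂ hr hr₂ hne hf hfs m B hB
    (CyclotomicField (N * s) ℚ)

end Vale.Agent.P024.H537
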